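import Vale.Agent.P352.BW.Lm
import Vale.Agent.P352.ND.Defs

/-!
# P352W: point splitting, the words (helper72)
-/

set_option autoImplicit false

open Filter Topology

namespace Vale.Agent.P352W

open P352 GF H246

variable {D : Type*} [NormedAddCommGroup D] [InnerProductSpace ℂ D]

/-- a form which is invariant under `φ` in `O` is invariant under `B` in `O` -/
def PS (φ B : Fld D) : Prop := ∀ (O : Set V) (f : Fn) (S : D →ₗ⋆[ℂ] D →ₗ[ℂ] ℂ), IsOpen O →
  In O f → (∀ v, Continuous fun w => S w v) → (∀ w, Continuous (S w)) →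
  (∀ g w v, In O g → S (φ (bar g) w) v = S w (φ g v)) → ∀ w v, S (B (bar f) w) v = S w (B f v)

theorem PS.self (φ : Fld D) : PS φ φ := fun _ f _ _ hf _ _ h w v => h f w v hf

/-- hermitian fields which are generated locally by `φ` -/
structure Raw (φ : Fld D) (P : Fld D → Prop) : Prop where
  phi : P φ
  herm : ∀ B f v w, P B → IsTest f → inner ℂ (B f v) w = inner ℂ v (B (bar f) w)
  cont : ∀ B v, P B → Continuous fun g => B (ev g) v
  ps : ∀ B, P B → PS φ B

end Vale.Agent.P352W
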