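import Vale.Agent.P352W.Gl.Ps0
import Vale.Agent.P352X.EB.ANA
import Vale.Agent.P352.H746.Flow3
import Vale.Agent.P352.BW.U
import Vale.Agent.P352X.CL.Pub0

/-!
# P352W: locality, charges and affiliation from point splitting (helper72)
-/

set_option autoImplicit false

open MeasureTheory Filter Topology
open scoped ComplexConjugate

noncomputable section

namespace Vale.Agent.P352W

open P352 GF H246 H15 BW P352X
open UniformSpace (Completion)

variable {D : Type*} [NormedAddCommGroup D] [InnerProductSpace ℂ D] {φ B : Fld D}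
  {P : Fld D → Prop} {O : Set V} {f g : Fn}

namespace Gl

theorem test_bar (hf : IsTest f) : IsTest (bar f) := by
  obtain ⟨g, rfl⟩ := hf
  exact ⟨SchwartzMap.postcompCLM (𝕜 := ℝ) (Complex.conjCLE : ℂ →L[ℝ] ℂ) g, rfl⟩

theorem test_cur {r : ℝ} {X : V → V} (hX : IsSim r X) (n : Ix) (hg : IsTest g) :
    IsTest fun x => (eta n : ℂ) * X x n * g x := by
  obtain ⟨a, w, -, h⟩ := hX
  obtain ⟨g, rfl⟩ := hg
  let l : V →L[ℝ] ℝ := r • ContinuousLinearMap.proj n + ∑ m, w m n • ContinuousLinearMap.proj m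
  have hl : ∀ x, X x n = a n + l x := fun x => by simp [l, h, add_assoc, mul_comm]
  have hu : (fun x : V => (eta n : ℂ) * X x n).HasTemperateGrowth := by
    simp only [hl, Complex.ofReal_add]
    exact (Function.HasTemperateGrowth.const _).mul ((Function.HasTemperateGrowth.const _).add
      (Complex.ofRealCLM ∘L l).hasTemperateGrowth)
  exact ⟨SchwartzMap.smulLeftCLM ℂ _ g, funext (SchwartzMap.smulLeftCLM_apply_apply hu g)⟩

/-- an operator with a formal adjoint is additive -/
theorem sub_of {Y Y' : D → D} (a : ∀ v w, inner ℂ (Y v) w = inner ℂ v (Y' w)) (u v : D) :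
    Y (u - v) = Y u - Y v :=
  ext_inner_right ℂ fun w => by rw [inner_sub_left, a, a, a, inner_sub_left]

theorem swap {Y Y' : D → D} (a : ∀ v w, inner ℂ (Y v) w = inner ℂ v (Y' w)) (v w : D) :
    inner ℂ (Y' v) w = inner ℂ v (Y w) := by
  rw [← inner_conj_symm, ← a, inner_conj_symm]

end Gl

open Gl

/-- the form of a pair of adjoint maps to the Hilbert space -/
theorem PS.pair (h : PS φ B) (o : IsOpen O) (hf : In O f) {Y Y' : D → Completion D}
    (a : ∀ w v : D, inner ℂ (w : Completion D) (Y v) = inner ℂ (Y' w) (v : Completion D))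
    (c : ∀ g (w v : D), In O g → inner ℂ ((φ (bar g) w : D) : Completion D) (Y v) =
      inner ℂ (w : Completion D) (Y (φ g v))) (w v : D) :
    inner ℂ ((B (bar f) w : D) : Completion D) (Y v) = inner ℂ (w : Completion D) (Y (B f v)) := by
  refine h O f (LinearMap.mk₂'ₛₗ (starRingEnd ℂ) (RingHom.id ℂ)
    (fun w v => inner ℂ (w : Completion D) (Y v)) (fun _ _ _ => ?_) (fun _ _ _ => ?_)
    (fun _ _ _ => ?_) fun _ _ _ => ?_) o hf (fun v => ?_) (fun w => ?_) c w v
  · rw [Completion.coe_add, inner_add_left]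
  · rw [Completion.coe_smul, inner_smul_left, smul_eq_mul]
  · rw [a, a, a, Completion.coe_add, inner_add_right]
  · rw [a, a, Completion.coe_smul, inner_smul_right, smul_eq_mul, RingHom.id_apply]
  · exact (Completion.continuous_coe D).inner continuous_const
  · exact (continuous_const.inner (Completion.continuous_coe D)).congr fun v => (a w v).symm

/-- an operator which commutes with `φ` in `O` commutes with all the fields in `O` -/
theorem Raw.cm (R : Raw φ P) (hB : P B) (o : IsOpen O) (hf : In O f) {Y Y' : D → D}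
    (a : ∀ v w, inner ℂ (Y v) w = inner ℂ v (Y' w))
    (c : ∀ g v, In O g → φ g (Y v) = Y (φ g v)) (v : D) : B f (Y v) = Y (B f v) := by
  refine ext_inner_left ℂ fun w => ?_
  have := (R.ps B hB).pair o hf (Y := fun v => (Y v : D)) (Y' := fun w => (Y' w : D))
    (fun w v => by rw [Completion.inner_coe, Completion.inner_coe, swap a])
    (fun g w v hg => by
      rw [Completion.inner_coe, Completion.inner_coe, R.herm φ _ _ _ R.phi (test_bar hg.1), bar_bar,
        c g v hg]) w v
  rwa [Completion.inner_coe, Completion.inner_coe, R.herm B _ _ _ hB (test_bar hf.1), bar_bar]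
    at this

/-- from compact supports to all supports -/
theorem Raw.ext (R : Raw φ P) (hB : P B) (hf : IsTest f) {Y Y' : D → D}
    (a : ∀ v w, inner ℂ (Y v) w = inner ℂ v (Y' w))
    (c : ∀ g v, In (tsupport f) g → B g (Y v) = Y (B g v)) (v : D) : B f (Y v) = Y (B f v) := by
  refine ext_inner_left ℂ fun w => ?_
  obtain ⟨F, rfl⟩ := hf
  have l (u z : D) : Tendsto (fun n => inner ℂ z (B (ev (EB.Ana.P n F)) u)) atTop
      (𝓝 (inner ℂ z (B (ev F) u))) :=
    tendsto_const_nhds.inner (((R.cont B u hB).tendsto F).comp (EB.Ana.lim F))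
  rw [← swap a]
  refine tendsto_nhds_unique (l _ w) ((l v (Y' w)).congr fun n => ?_)
  have i := EB.ana_row.inn n (ev F) ⟨F, rfl⟩
  rw [swap a, EB.Ana.ev_P, c _ v ⟨i.1, i.2.1, i.2.2.trans Set.inter_subset_left⟩]

/-- **locality** -/
theorem loc_of (R : Raw φ P) (L : ∀ f g v, In Set.univ f → In Set.univ g → Sep f g →
    φ f (φ g v) = φ g (φ f v)) : ∀ A B f g v, P A → P B → IsTest f → IsTest g → Sep f g →
      A f (B g v) = B g (A f v) := by
  have k : ∀ A B f g v, P A → P B → In Set.univ f → In Set.univ g → Sep f g →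
      A f (B g v) = B g (A f v) := by
    intro A B f g v hA hB hf hg s
    obtain ⟨O, O', o, o', i, i', h⟩ := generalized_tube_lemma hf.2.1 hg.2.1
      (n := {p : V × V | GF.mdot (fun m => p.1 m - p.2 m) (fun m => p.1 m - p.2 m) < 0})
      (isOpen_lt (by unfold GF.mdot; fun_prop) continuous_const) fun p hp => s _ hp.1 _ hp.2
    refine (R.cm hB o' ⟨hg.1, hg.2.1, i'⟩ (fun v w => R.herm A f v w hA hf.1)
      (fun g' v hg' => ?_) v).symm
    exact (R.cm hA o ⟨hf.1, hf.2.1, i⟩ (fun v w => R.herm φ g' v w R.phi hg'.1)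
      (fun f' v hf' => L f' g' v ⟨hf'.1, hf'.2.1, Set.subset_univ _⟩
        ⟨hg'.1, hg'.2.1, Set.subset_univ _⟩ fun x hx y hy =>
          h (Set.mk_mem_prod (hf'.2.2 hx) (hg'.2.2 hy))) v).symm
  intro A B f g v hA hB hf hg s
  refine R.ext hA hf (fun v w => R.herm B g v w hB hg) (fun f' v hf' => ?_) v
  refine (R.ext hB hg (fun v w => R.herm A f' v w hA hf'.1) (fun g' v hg' => ?_) v).symm
  exact (k A B f' g' v hA hB ⟨hf'.1, hf'.2.1, Set.subset_univ _⟩ ⟨hg'.1, hg'.2.1, Set.subset_univ _⟩
    fun x hx y hy => s x (hf'.2.2 hx) y (hg'.2.2 hy)).symm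

/-- **affiliation** -/
theorem aff_of (R : Raw φ P) (hB : P B) (o : IsOpen O) (hf : In O f)
    {M : VonNeumannAlgebra (Completion D)} (h : ∀ g, In O g → Aff M (φ g)) : Aff M (B f) := by
  refine ⟨B (bar f), fun v w => R.herm B f v w hB hf.1, fun Y hY v w => ?_⟩
  refine (R.ps B hB).pair o hf (Y := fun v => Y v) (Y' := fun w => ContinuousLinearMap.adjoint Y w)
    (fun w v => (ContinuousLinearMap.adjoint_inner_left _ _ _).symm) (fun g w v hg => ?_) w v
  obtain ⟨X', a, c⟩ := h g hg
  rw [← c Y hY v w, ext_inner_left ℂ fun u => (a u w).symm.trans (R.herm φ g u w R.phi hg.1)]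

variable {Q : Theory D} {T : Ix → Ix → Fld D} {A : (V → V) → D → D}

theorem cur_herm (R : Raw φ P) (hT : ∀ m n, P (T m n)) {r : ℝ} {X : V → V} (hX : IsSim r X)
    (hg : IsTest g) (v w : D) :
    inner ℂ (ND.cur T X g v) w = inner ℂ v (ND.cur T X (bar g) w) := by
  simp only [ND.cur, sum_inner, inner_sum]
  refine Finset.sum_congr rfl fun n _ => ?_
  rw [R.herm _ _ v w (hT o n) (test_cur hX n hg)]
  congr 2
  funext x
  simp [bar]

/-- the commutators with the cut off charges are exact for large cutoffs -/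
theorem pch_ev (R : Raw φ P) (hT : ∀ m n, P (T m n)) (hA : Rep Q A) {F : ℝ → Fn} {X : V → V}
    (hF : IsCutoff F) (hX : IsSim 0 X)
    (ch : ∀ ρ : ℝ, ∀ᶠ r in atTop, ∀ g v, In (Metric.ball 0 ρ) g →
      ND.cur T X (F r) (φ g v) - φ g (ND.cur T X (F r) v) = A X (φ g v) - φ g (A X v))
    (hB : P B) (hf : In Set.univ f) : ∀ᶠ r in atTop, ∀ v,
      ND.cur T X (F r) (B f v) - B f (ND.cur T X (F r) v) = A X (B f v) - B f (A X v) := by
  obtain ⟨ρ, hρ⟩ := hf.2.1.isCompact.isBounded.subset_ball (0 : V)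
  obtain ⟨a, c, -, -, -, -, t⟩ := hF
  filter_upwards [ch ρ, eventually_gt_atTop 0] with r h r0 v
  have := R.cm hB Metric.isOpen_ball ⟨hf.1, hf.2.1, hρ⟩ (Y := fun v => ND.cur T X (F r) v - A X v)
    (Y' := fun v => ND.cur T X (bar (F r)) v - A X v) (fun v w => by
      rw [inner_sub_left, inner_sub_right, cur_herm R hT hX (t r r0).1, H746.A_symm hA hX])
    (fun g v hg => by
      rw [sub_of fun v w => R.herm φ g v w R.phi hg.1]
      linear_combination (norm := abel_nf) -h g v hg) v
  rw [sub_of fun v w => R.herm B f v w hB hf.1] at this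
  linear_combination (norm := abel_nf) -this

/-- **the charges** -/
theorem pch_of (R : Raw φ P) (e : ∀ B, Q.fld B → P B) (hT : ∀ m n, P (T m n)) (hA : Rep Q A)
    (ch : ∀ F X (ρ : ℝ), IsCutoff F → IsSim 0 X → ∀ᶠ r in atTop, ∀ g v, In (Metric.ball 0 ρ) g →
      ND.cur T X (F r) (φ g v) - φ g (ND.cur T X (F r) v) = A X (φ g v) - φ g (A X v)) :
    ND.PCh Q T A := fun F X B _ v w hF hX hB hf c =>
  tendsto_const_nhds.congr' ((pch_ev R hT hA hF hX (fun ρ => ch F X ρ hF hX) (e B hB)
    ⟨hf, c, Set.subset_univ _⟩).mono fun _ h => congrArg (inner ℂ w) (h v).symm)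

/-- the stress tensor of a theory with a non constant field does not vanish -/
theorem nz_T (hT : Stress0 Q T) (hB : Q.fld B) (hf : In Set.univ f) {v : D}
    (h : B (pd o f) v ≠ 0) : ∃ g u, IsTest g ∧ T o o g u ≠ 0 := by
  by_contra n
  push Not at n
  obtain ⟨B', -, a⟩ := Q.adj B hB
  have z : B f 0 = 0 := by
    have := sub_of (fun v w => a f v w hf.1) 0 0
    rwa [sub_self, sub_self] at this
  obtain ⟨_, _, -, -, -, -, t⟩ := isCutoff_cutF
  have := tendsto_nhds_unique (hT.charge cutF o B f v ((Complex.I * eta o) • B (pd o f) v)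
    isCutoff_cutF hB hf.1 hf.2.1) (tendsto_const_nhds (x := 0).congr' (by
      filter_upwards [eventually_gt_atTop 0] with r r0
      rw [n _ _ (t r r0).1, n _ _ (t r r0).1, z, sub_zero, inner_zero_right]))
  simp [eta, h] at this

/-- a scale invariant theory with a unique vacuum is trivial or infinite dimensional -/
theorem nz_dim (hA : Rep Q A) (hU : L.UVac Q) {v : D} (h : v ≠ 0) (h0 : inner ℂ Q.vac v = 0) :
    ¬FiniteDimensional ℂ (Completion D) := by
  intro fd
  have l1 : IsLor one := isLor_one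
  have : FiniteDimensional ℂ D := FiniteDimensional.of_injective
    (Completion.toComplₗᵢ (𝕜 := ℂ) (E := D)).toLinearMap Completion.toComplₗᵢ.injective
  have := FiniteDimensional.proper ℂ D
  have inv (a : V) : Q.U 1 one a v = v := by
    let s : ℕ → ℝ := fun n => 1 / ((n : ℝ) + 1)
    have s0 (n : ℕ) : 0 < s n := Nat.one_div_pos_of_nat
    obtain ⟨w, -, k, hk, lw⟩ := (isCompact_sphere (0 : D) ‖v‖).tendsto_subseq
      (x := fun n => Q.U (s n) one 0 v) fun n =>
        mem_sphere_zero_iff_norm.2 ((ueI Q (s0 n) l1 0).norm_map v)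
    have e1 (t : ℝ) (b x : V) : sim t one b x = b + t • x := by
      funext n
      simp [sim, one, bas]
    have e2 : (fun m => sim 1 one 0 (one m)) = one := funext fun m => by rw [e1]; simp
    have d : HasDerivAt (fun e : ℝ => Q.U 1 one (e • a) w) (Complex.I • A (fun _ => a) w) 0 :=
      hA.der (fun _ => 1) (fun _ => one) (fun e => e • a) _ w rfl rfl (zero_smul _ _)
        (fun _ => ⟨one_pos, l1⟩) fun n x => by
          simpa [e1] using ((hasDerivAt_id (0 : ℝ)).mul_const (a n)).add_const (x n)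
    have u0 : Q.U 1 one 0 w = w := by
      refine (ueI Q one_pos l1 0).injective ?_
      rw [ueI_apply, ueI_apply, hA.mul _ _ _ _ _ _ _ one_pos one_pos l1 l1, e1, e2]
      simp
    have c : Tendsto (fun n => Q.U 1 one (s (k n) • a) w) atTop (𝓝 w) := by
      have := d.continuousAt.tendsto.comp
        (tendsto_one_div_add_atTop_nhds_zero_nat.comp hk.tendsto_atTop)
      rwa [zero_smul, u0] at this
    have b (n : ℕ) : dist (Q.U 1 one a v) v ≤ dist (Q.U (s (k n)) one 0 v) w +
        dist (Q.U 1 one (s (k n) • a) w) w + dist (Q.U (s (k n)) one 0 v) w := by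
      have p := (ueI Q one_pos l1 (s (k n) • a)).dist_map (Q.U (s (k n)) one 0 v) w
      have q := (ueI Q (s0 (k n)) l1 0).dist_map (Q.U 1 one a v) v
      simp only [ueI_apply, hA.mul _ _ _ _ _ _ _ (s0 _) one_pos l1 l1,
        hA.mul _ _ _ _ _ _ _ one_pos (s0 _) l1 l1, e1, mul_one, one_mul, zero_add, add_zero,
        smul_zero] at p q
      rw [← q]
      refine (dist_triangle4 _ (Q.U 1 one (s (k n) • a) w) w _).trans_eq ?_
      rw [p, dist_comm w]
    have lw' := tendsto_iff_dist_tendsto_zero.1 lw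
    have := ge_of_tendsto' ((lw'.add (tendsto_iff_dist_tendsto_zero.1 c)).add lw') b
    exact dist_le_zero.1 (by simpa using this)
  obtain ⟨c, hc⟩ := hU v fun a => by rw [ue_coe one_pos l1, inv]
  rw [om, ← Completion.coe_smul, (Completion.coe_injective D).eq_iff] at hc
  rw [hc, inner_smul_right, inner_self_eq_norm_sq_to_K, Q.norm_vac] at h0
  exact h (by rw [hc, show c = 0 by simpa using h0, zero_smul])

end Vale.Agent.P352W
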