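import Vale.Agent.P352W.Gl.Th
import Vale.Agent.P352W.Net.Lnm
import Vale.Agent.P352X.R.GRP.C
import Vale.Agent.P352X.EG.Pub
import Vale.Agent.P352.BW.T.TgDefs

/-!
# P352W: all hypotheses hold for the free field (helper85)
-/

set_option autoImplicit false
set_option linter.all false

open MeasureTheory Filter Topology

noncomputable section

namespace Vale.Agent.P352W

open P352 GF H246 H15 BW P352X
open UniformSpace (Completion)

variable {D : Type*} [NormedAddCommGroup D] [InnerProductSpace ℂ D] {Ω : D} {φ : Fld D}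
  {T : Ix → Ix → Fld D} {U : ℝ → (Ix → V) → V → D → D}

namespace Tp

variable {Q : Theory D} {A : (V → V) → D → D} {B : Fld D} {f : Fn}

theorem smul (hB : Q.fld B) (hf : IsTest f) (c : ℂ) (v : D) :
    B (fun x => c * f x) v = c • B f v := by
  have z : IsTest fun _ => 0 := ⟨0, rfl⟩
  have a := Q.lin B _ _ 1 v hB z z
  have b := Q.lin B _ f c v hB z hf
  simp only [zero_add, mul_zero, one_smul] at a b
  rw [b, left_eq_add.1 a, zero_add]

/-- the commutator of the momentum operators with the fields -/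
theorem tra (hA : Rep Q A) (hB : Q.fld B) (hf : IsTest f) (n : Ix) (v : D) :
    A (fun _ => bas n 1) (B f v) - B f (A (fun _ => bas n 1) v) = Complex.I • B (pd n f) v := by
  have K : H746.Crv (fun _ => 1) (fun _ => GF.one) (fun e => e • bas n 1) (fun _ _ => 0) 0
      (bas n 1) := ⟨rfl, rfl, zero_smul _ _, fun _ => one_pos, fun _ => isLor_one,
    hasDerivAt_const _ _, fun _ _ => hasDerivAt_const _ _, fun k => by
      simpa using (hasDerivAt_id (0 : ℝ)).mul_const (bas n 1 k)⟩
  have hX : ∀ (z : V) k, (fun _ : V => bas n 1) z k =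
      bas n 1 k + 0 * z k + ∑ m, z m * (fun _ _ => 0 : Ix → V) m k := fun z k => by simp
  have e : H746.vf (fun _ => bas n 1) f = pd n f := funext fun x => by
    simp [H746.vf, bas, apply_ite Complex.ofReal]
  rw [← e]
  obtain ⟨F, rfl⟩ := exists_fl hf
  have h1 := H746.comm_gen hA K hX (ι := Unit) (B := fun _ => B) (fun _ => hB) hB
    (C := fun _ _ => 1) (C' := fun _ => 0) (fun _ => hasDerivAt_const _ _) F v fun e => by
      rw [Q.transl B _ _ v hB hf, fl_sim 1 one_pos isLor_one]
      simp only [Finset.univ_unique, Finset.sum_singleton, Complex.ofReal_one, one_smul]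
      rfl
  rw [← H746.fl_vfS hX]
  simp only [Finset.univ_unique, Finset.sum_singleton, Complex.ofReal_one, one_smul,
    Complex.ofReal_zero, zero_smul, zero_add] at h1
  rw [(Rp.aj_fld hB hf).smul, ← sub_eq_iff_eq_add', ← smul_sub] at h1
  rw [← h1, smul_smul, Complex.I_mul_I, neg_one_smul, neg_sub]

theorem cur_bas (hT : ∀ m n, Q.fld (T m n)) (hf : IsTest f) (n : Ix) (u : D) :
    ND.cur T (fun _ => bas n 1) f u = (eta n : ℂ) • T o n f u := by
  simp only [ND.cur, smul (hT _ _) hf]
  rw [Finset.sum_eq_single n]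
  · simp [bas]
  · intro k _ hk
    simp [bas, hk]
  · simp

theorem charge (hA : Rep Q A) (hT : ∀ m n, Q.fld (T m n)) (hP : ND.PCh Q T A) {F : ℝ → Fn}
    (n : Ix) (v w : D) (hF : IsCutoff F) (hB : Q.fld B) (hf : IsTest f) (c : HasCompactSupport f) :
    Tendsto (fun R => inner ℂ w (T o n (F R) (B f v) - B f (T o n (F R) v))) atTop
      (𝓝 (inner ℂ w ((Complex.I * eta n) • B (pd n f) v))) := by
  have a := (hP F _ B f v w hF (H755.const_sim (bas n 1)) hB hf c).const_mul (eta n : ℂ)
  rw [tra hA hB hf, ← inner_smul_right, smul_smul, mul_comm] at a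
  obtain ⟨_, _, -, -, -, -, t⟩ := hF
  have e : (eta n : ℂ) * eta n = 1 := by
    unfold eta
    split_ifs <;> simp
  refine a.congr' ?_
  filter_upwards [eventually_gt_atTop 0] with r r0
  rw [cur_bas hT (t r r0).1, cur_bas hT (t r r0).1, (Rp.aj_fld hB hf).smul, ← smul_sub,
    inner_smul_right, ← mul_assoc, e, one_mul]

/-- spin zero -/
def r0 : Rp where
  n := 1
  ρ _ := 1
  S _ _ := 0
  id := rfl
  mul _ _ _ _ := .inl (one_mul _).symm
  der L w a b _ _ _ := by simpa using hasDerivAt_const (0 : ℝ) ((1 : Matrix (Fin 1) (Fin 1) ℂ) a b)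

/-- pairs of indices -/
def pr : Fin (4 * 4) ≃ Ix × Ix := finProdFinEquiv.symm

/-- tensors of rank two -/
def r2 : Rp where
  n := 4 * 4
  ρ L := Matrix.of fun b a => ((L (pr b).1 (pr a).1 * L (pr b).2 (pr a).2 : ℝ) : ℂ)
  S m n := Matrix.of fun b a => ((GF.one (pr b).1 m * GF.one (pr a).1 n * GF.one (pr b).2 (pr a).2 +
    GF.one (pr b).1 (pr a).1 * (GF.one (pr b).2 m * GF.one (pr a).2 n) : ℝ) : ℂ)
  id := by
    ext b a
    rw [Matrix.one_apply, Matrix.of_apply]
    simp only [← pr.injective.eq_iff, Prod.ext_iff, GF.one, bas, eq_comm (a := (pr a).1),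
      eq_comm (a := (pr a).2)]
    split_ifs <;> simp_all
  mul L L' _ _ := .inl (by
    ext b a
    rw [Matrix.mul_apply, ← pr.symm.sum_comp, Fintype.sum_prod_type]
    simp only [Matrix.of_apply, Equiv.apply_symm_apply, sim, Pi.zero_apply, zero_add, one_mul]
    rw [Finset.sum_mul_sum]
    push_cast
    exact Finset.sum_congr rfl fun _ _ => Finset.sum_congr rfl fun _ _ => by ring)
  der L w b a L0 _ d := by
    have := ((d (pr b).1 (pr a).1).mul (d (pr b).2 (pr a).2)).ofReal_comp
    rw [L0] at this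
    have e : ∀ i j : Ix, ∑ m, ∑ n, w m n * (GF.one i m * GF.one j n) = w i j := fun i j => by
      simp [GF.one, bas]
    rw [← e (pr b).1, ← e (pr b).2, Finset.sum_mul, Finset.mul_sum, ← Finset.sum_add_distrib,
      Complex.ofReal_sum] at this
    refine this.congr_deriv (Finset.sum_congr rfl fun m _ => ?_)
    rw [Finset.sum_mul, Finset.mul_sum, ← Finset.sum_add_distrib, Complex.ofReal_sum]
    refine Finset.sum_congr rfl fun n _ => ?_
    rw [Matrix.of_apply]
    push_cast
    ring

/-- the time translations -/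
def W (Q : Theory D) (t : ℝ) : D →ₗᵢ[ℂ] D := ueI Q one_pos isLor_one (bas o t)

theorem W_add (s t : ℝ) (v : D) : W Q s (W Q t v) = W Q (s + t) v := by
  have e : bas o (s + t) = bas o s + bas o t := funext fun n => by
    simp only [bas, Pi.add_apply]
    split_ifs <;> simp
  simp only [W, ueI_apply, e]
  exact H755.Uadd1 _ _ v

/-- the weight of one average -/
def cs (τ : ℝ) (p : V) : ℝ := (1 + Real.cos (p o * τ)) / 2

theorem cs_mem (τ : ℝ) (p : V) : 0 ≤ cs τ p ∧ cs τ p ≤ 1 := by
  have := Real.neg_one_le_cos (p o * τ)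
  have := Real.cos_le_one (p o * τ)
  unfold cs
  constructor <;> linarith

/-- vectors with a given spectral density and a given scalar product with `z` -/
def Sp (Q : Theory D) (ν : Measure V) (z : Completion D) (c : ℂ) (g : V → ℝ) : Prop :=
  Continuous g ∧ (∀ p, 0 ≤ g p ∧ g p ≤ 1) ∧ ∃ u : D, inner ℂ z (u : Completion D) = c ∧
    ∀ t : ℝ, inner ℂ u (W Q t u) = ∫ p, g p * Complex.exp (Complex.I * (p o * t)) ∂ν

theorem Sp.step {ν : Measure V} [IsFiniteMeasure ν] {z : Completion D} {c : ℂ} {g : V → ℝ}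
    (hz : ∀ a, Ue Q 1 GF.one a z = z) (k : Sp Q ν z c g) (τ : ℝ) :
    Sp Q ν z c fun p => g p * cs τ p := by
  obtain ⟨k1, k2, u, k3, k4⟩ := k
  have i (t : ℝ) : Integrable (fun p : V => g p * Complex.exp (Complex.I * (p o * t))) ν :=
    (integrable_const (1 : ℝ)).mono' (Continuous.aestronglyMeasurable (by fun_prop))
      (.of_forall fun p => by
        rw [norm_mul, ← Complex.ofReal_mul, mul_comm Complex.I, Complex.norm_exp_ofReal_mul_I,
          mul_one, Complex.norm_real, Real.norm_of_nonneg (k2 p).1]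
        exact (k2 p).2)
  refine ⟨by unfold cs; fun_prop, fun p => ⟨mul_nonneg (k2 p).1 (cs_mem τ p).1,
    mul_le_one₀ (k2 p).2 (cs_mem τ p).1 (cs_mem τ p).2⟩, (2⁻¹ : ℂ) • (u + W Q τ u), ?_, fun t => ?_⟩
  · have := (ueC Q one_pos isLor_one (bas o τ)).inner_map_map z u
    rw [ueC_apply, ueC_apply, hz, ue_coe one_pos isLor_one, k3] at this
    rw [Completion.coe_smul, Completion.coe_add, inner_smul_right, inner_add_right, k3]
    erw [this]
    ring
  · have a : inner ℂ (W Q τ u) (W Q t u) = inner ℂ u (W Q (t - τ) u) := by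
      rw [← (W Q τ).inner_map_map u, W_add, add_sub_cancel]
    have b : inner ℂ (W Q τ u) (W Q (t + τ) u) = inner ℂ u (W Q t u) := by
      rw [← (W Q τ).inner_map_map u, W_add, add_comm]
    rw [map_smul, map_add, inner_smul_left, inner_smul_right, inner_add_left, inner_add_right,
      inner_add_right, W_add, a, b, k4, k4, k4, ← integral_add' (i _) (i _),
      ← integral_add' (i _) (i _), ← integral_add' ((i _).add (i _)) ((i _).add (i _)),
      ← integral_const_mul, ← integral_const_mul]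
    refine integral_congr_ae (.of_forall fun p => ?_)
    have e1 : Complex.exp (Complex.I * (p o * (t + τ : ℝ))) =
        Complex.exp (Complex.I * (p o * t)) * Complex.exp ((p o * τ : ℝ) * Complex.I) := by
      rw [← Complex.exp_add]
      push_cast
      ring_nf
    have e2 : Complex.exp (Complex.I * (p o * (t - τ : ℝ))) =
        Complex.exp (Complex.I * (p o * t)) * Complex.exp (-(p o * τ : ℝ) * Complex.I) := by
      rw [← Complex.exp_add]
      push_cast
      ring_nf
    simp only [Pi.add_apply, e1, e2]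
    simp only [cs, Complex.ofReal_mul (g p), Complex.ofReal_div,
      Complex.ofReal_add, Complex.ofReal_cos, Complex.cos, map_inv₀, Complex.conj_ofNat]
    push_cast
    ring

theorem cs_lt {p : V} (hp : p o ≠ 0) : cs 1 p * cs √2 p < 1 := by
  by_contra n
  have a := cs_mem 1 p
  have b := cs_mem (√2) p
  have a1 : Real.cos (p o * 1) = 1 := by
    have : 1 ≤ cs 1 p := by nlinarith
    unfold cs at this
    linarith [Real.cos_le_one (p o * 1)]
  have b1 : Real.cos (p o * √2) = 1 := by
    have : 1 ≤ cs (√2) p := by nlinarith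
    unfold cs at this
    linarith [Real.cos_le_one (p o * √2)]
  obtain ⟨k, hk⟩ := (Real.cos_eq_one_iff _).1 a1
  obtain ⟨l, hl⟩ := (Real.cos_eq_one_iff _).1 b1
  have k0 : k ≠ 0 := by
    rintro rfl
    exact hp (by simpa using hk.symm)
  refine (irrational_sqrt_two.intCast_mul k0).ne_int l (mul_right_cancel₀ Real.two_pi_pos.ne' ?_)
  rw [hl, ← mul_one (p o), ← hk]
  ring

theorem uv (sp : ∀ v, inner ℂ Q.vac v = 0 → ∃ ν : Measure V, IsFiniteMeasure ν ∧
    ν {p | p o = 0} = 0 ∧ ∀ a, inner ℂ v (Q.U 1 GF.one a v) =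
      ∫ p, Complex.exp (Complex.I * GF.mdot p a) ∂ν) : L.UVac Q := by
  intro z hz
  have key (v : D) (hv : inner ℂ Q.vac v = 0) : inner ℂ z (v : Completion D) = 0 := by
    obtain ⟨ν, _, n, e⟩ := sp v hv
    have s (N : ℕ) : Sp Q ν z (inner ℂ z (v : Completion D)) fun p => (cs 1 p * cs √2 p) ^ N := by
      induction N with
      | zero =>
        refine ⟨by unfold cs; fun_prop, fun _ => by simp, v, rfl, fun t => (e _).trans ?_⟩
        simp [GF.mdot, bas, eta]
      | succ N ih => simpa only [pow_succ, mul_assoc] using (ih.step hz 1).step hz √2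
    have l : Tendsto (fun N : ℕ => ∫ p, (cs 1 p * cs √2 p) ^ N ∂ν) atTop (𝓝 (∫ _, 0 ∂ν)) :=
      tendsto_integral_of_dominated_convergence (fun _ => 1) (fun N => (s N).1.aestronglyMeasurable)
        (integrable_const _) (fun N => .of_forall fun p => by
          rw [Real.norm_of_nonneg ((s N).2.1 p).1]
          exact ((s N).2.1 p).2) (by
          filter_upwards [measure_eq_zero_iff_ae_notMem.1 n] with p hp
          exact tendsto_pow_atTop_nhds_zero_of_lt_one
            (mul_nonneg (cs_mem _ p).1 (cs_mem _ p).1) (cs_lt hp))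
    have b : ‖inner ℂ z (v : Completion D)‖ ^ 2 ≤ ‖z‖ ^ 2 * ∫ _, 0 ∂ν := by
      refine ge_of_tendsto' (l.const_mul _) fun N => ?_
      obtain ⟨-, -, u, k3, k4⟩ := s N
      have k := k4 0
      rw [show W Q 0 u = u from by
        rw [W, ueI_apply, show bas o 0 = 0 from funext fun n => by simp [bas]]
        exact H755.Uone u, inner_self_eq_norm_sq_to_K] at k
      simp only [Complex.ofReal_zero, mul_zero, Complex.exp_zero, mul_one,
        integral_complex_ofReal] at k
      have k' : ‖u‖ ^ 2 = ∫ p, (cs 1 p * cs √2 p) ^ N ∂ν :=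
        Complex.ofReal_injective (by rw [← k]; simp)
      rw [← k', ← k3, ← mul_pow, ← Completion.norm_coe u]
      exact pow_le_pow_left₀ (norm_nonneg _) (norm_inner_le_norm _ _) 2
    simpa using b
  refine ⟨inner ℂ (om Q) z, ext_inner_right ℂ fun y => ?_⟩
  refine Completion.induction_on y (isClosed_eq (by fun_prop) (by fun_prop)) fun w => ?_
  have := key (w - inner ℂ Q.vac w • Q.vac) (by
    rw [inner_sub_right, inner_smul_right, inner_self_eq_norm_sq_to_K, Q.norm_vac]
    simp)
  rw [Completion.coe_sub, Completion.coe_smul, inner_sub_right, inner_smul_right, sub_eq_zero]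
    at this
  rw [this, inner_smul_left, inner_conj_symm, om, Completion.inner_coe, mul_comm]

end Tp

namespace Free

variable (h : Free Ω φ T U)

theorem th_U : h.th.U = U := rfl

theorem stress {A : (V → V) → D → D} (hA : Rep h.th A) : h.th.IsStress T where
  bose := h.fT
  symm := h.symm
  herm m n f v w hf := h.herm _ f v w (h.fT m n) hf
  cov := h.cov_T
  conserved := h.conserved
  charge F n B f v w hF hB hf c := Tp.charge hA h.fT (h.pch hA) n v w hF hB hf c

theorem stress0 {A : (V → V) → D → D} (hA : Rep h.th A) : Stress0 h.th T :=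
  have s := h.stress hA
  ⟨s.bose, s.symm, s.herm, fun m n L a f v => s.cov m n 1 L a f v one_pos, s.conserved, s.charge⟩

theorem tf : TfGen h.th := fun S hS k => h.th.cyclic S hS (by
  rintro B f v (rfl | ⟨m, n, rfl⟩) hf hv
  · refine k 0 (fun _ => B) default f v ⟨fun _ => h.fp, fun μ L g u hL hg => ?_⟩ hf hv
    simpa [th_U] using h.cov_phi 1 L 0 g u one_pos hL hg
  · refine k 2 (fun μ => T (μ 0) (μ 1)) ![m, n] f v ⟨fun _ => h.fT _ _, fun μ L g u hL hg => ?_⟩
      hf hv
    rw [← (piFinTwoEquiv fun _ => Ix).symm.sum_comp, Fintype.sum_prod_type]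
    simpa [th_U] using h.cov_T (μ 0) (μ 1) 1 L 0 g u one_pos hL hg)

theorem mf : MfAll h.th := by
  rintro B (rfl | ⟨m, n, rfl⟩)
  · refine ⟨1, fun _ => B, fun _ => ⟨Tp.r0, fun _ => B, (0 : Fin 1),
      ⟨fun _ => h.fp, fun a L g u hL hg => ?_⟩, rfl⟩, fun _ _ _ => by simp⟩
    have e : ∀ (a : Fin 1) (w : D), w = ∑ b : Fin 1, (1 : Matrix (Fin 1) (Fin 1) ℂ) b a • w :=
      fun a w => by
        rw [Fin.sum_univ_one, Subsingleton.elim a 0]
        simp
    refine Eq.trans ?_ (e a _)
    simpa [th_U] using h.cov_phi 1 L 0 g u one_pos hL hg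
  · refine ⟨1, fun _ => T m n, fun _ => ⟨Tp.r2, fun a => T (Tp.pr a).1 (Tp.pr a).2,
      Tp.pr.symm (m, n), ⟨fun _ => h.fT _ _, fun a L g u hL hg => ?_⟩, by simp⟩,
      fun _ _ _ => by simp⟩
    refine (h.cov_T _ _ 1 L 0 g u one_pos hL hg).trans ?_
    rw [← Fintype.sum_prod_type', ← Tp.pr.sum_comp]
    refine Finset.sum_congr rfl fun b _ => ?_
    rw [← Complex.ofReal_mul]
    rfl

theorem fsl : FSL h.th := by
  rintro B (rfl | ⟨m, n, rfl⟩)
  · refine ⟨{(1, 0)}, fun _ => B, fun _ => ⟨h.fp, id⟩, fun s f v hs hf => ?_⟩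
    have e : (4 : ℂ) - 1 = (3 : ℕ) := by norm_num
    rw [Finset.sum_singleton, e, Complex.cpow_natCast, pow_zero, mul_one, ← Complex.ofReal_pow]
    exact h.cov_phi s _ 0 f v hs isLor_one hf
  · refine ⟨{(4, 0)}, fun _ => T m n, fun _ => ⟨h.fT m n, id⟩, fun s f v hs hf => ?_⟩
    rw [Finset.sum_singleton, sub_self, Complex.cpow_zero, pow_zero, mul_one, one_smul]
    exact (h.cov_T m n s _ 0 f v hs isLor_one hf).trans (Gl.one_sum m n _)

theorem perp {A : (V → V) → D → D} (hA : Rep h.th A) : ∃ v, v ≠ 0 ∧ inner ℂ Ω v = 0 := by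
  obtain ⟨f, hf, n⟩ := h.nz
  refine ⟨_, n, ?_⟩
  rw [tr, inner_sum]
  refine Finset.sum_eq_zero fun m _ => ?_
  rw [inner_smul_right]
  exact mul_eq_zero_of_right _ (Grp.perp (h.stress hA) m m hf)

theorem uvac : L.UVac h.th := Tp.uv fun v hv => by
  obtain ⟨ν, a, -, b, c⟩ := h.spec v
  refine ⟨ν, a, (measureReal_eq_zero_iff (measure_ne_top _ _)).1
    (le_antisymm ?_ measureReal_nonneg), c⟩
  rwa [show inner ℂ Ω v = 0 from hv, norm_zero, zero_pow two_ne_zero] at b

end Free

/-- **The free field satisfies all hypotheses.** -/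
theorem top (h : Free Ω φ T U) : ∃ (Q : Theory D) (A : (V → V) → D → D)
    (N : Set V → VonNeumannAlgebra (Completion D)), Q.vac = Ω ∧ Stress0 Q T ∧ ND.PCh Q T A ∧
      TfGen Q ∧ MfAll Q ∧ FSL Q ∧ LNm Q A N ∧ L.UVac Q ∧ Q.IsScalar φ 1 ∧
      ¬FiniteDimensional ℂ (Completion D) := by
  obtain ⟨A, hA⟩ := h.rep
  obtain ⟨N, hN⟩ := Net.lnm hA h.scalar h.raw h.fil
  obtain ⟨v, n, p⟩ := h.perp hA
  exact ⟨h.th, A, N, rfl, h.stress0 hA, h.pch hA, h.tf, h.mf, h.fsl, hN, h.uvac, h.scalar,
    nz_dim hA h.uvac n p⟩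

end Vale.Agent.P352W
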