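import Vale.Agent.P352W.Gl.Top
import Vale.Agent.P352W.Eb.Gr

/-!
# P352W: the witnesses, from the list `Free` (helper85)
-/

set_option autoImplicit false

namespace Vale.Agent.P352W

open P352 GF H246 H15 BW P352X
open P352.ND (PCh)
open UniformSpace (Completion)

variable {D : Type} [NormedAddCommGroup D] [InnerProductSpace ℂ D] {Ω : D} {φ : Fld D}
  {T : Ix → Ix → Fld D} {U : ℝ → (Ix → V) → V → D → D}

/-- the field does not annihilate the vacuum -/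
theorem Free.nzp (h : Free Ω φ T U) : ∃ f, IsTest f ∧ φ f Ω ≠ 0 := by
  by_contra! z
  obtain ⟨A, hA⟩ := h.rep
  obtain ⟨f, hf, n⟩ := h.nz
  have a (v w : D) : inner ℂ (inner ℂ Ω v • Ω) w = inner ℂ v (inner ℂ Ω w • Ω) := by
    rw [inner_smul_left, inner_smul_right, inner_conj_symm, mul_comm]
  refine n (Finset.sum_eq_zero fun m _ => smul_eq_zero_of_right _ ?_)
  have := h.raw.ext (h.fT m m) hf a (fun g v hg => h.raw.cm (h.fT m m) isOpen_univ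
    ⟨hg.1, hg.2.1, Set.subset_univ _⟩ a (fun g v hg => by
      rw [(Rp.aj_fld h.fp hg.1).smul, z g hg.1, ← inner_conj_symm Ω (φ g v), h.herm φ g v Ω h.fp hg.1,
        z _ (Gl.test_bar hg.1)]
      simp) v) Ω
  rw [show inner ℂ Ω (T m m f Ω) = 0 from Grp.perp (h.stress hA) m m hf,
    inner_self_eq_norm_sq_to_K, h.norm_vac] at this
  simpa using this

theorem wit_of (h : Free Ω φ T U) : ∃ (D : Type) (_ : NormedAddCommGroup D)
    (_ : InnerProductSpace ℂ D) (Q : Theory D) (T : Ix → Ix → Fld D) (A : (V → V) → D → D)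
    (N : Set V → VonNeumannAlgebra (Completion D)), Stress0 Q T ∧ PCh Q T A ∧ TfGen Q ∧ MfAll Q ∧
      FSL Q ∧ LNm Q A N ∧ L.UVac Q ∧
      (∃ φ, Q.IsScalar φ 1 ∧ ∃ f, IsTest f ∧ φ f Q.vac ≠ 0) ∧
      ¬FiniteDimensional ℂ (Completion D) ∧ ∃ f, IsTest f ∧ tr T f Q.vac ≠ 0 := by
  obtain ⟨Q, A, N, e, a, b, c, d, f, g, i, j, k⟩ := top h
  exact ⟨D, _, _, Q, T, A, N, a, b, c, d, f, g, i, ⟨φ, j, e ▸ h.nzp⟩, k, e ▸ h.nz⟩

theorem witG_of (h : Free Ω φ T U) (e : ∀ B f, Fp φ T B → IsTest f → ∃ C : ℝ, ∀ v y,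
    HasDerivAt (fun t : ℝ => U 1 GF.one (bas o t) v) y 0 → ‖B f v‖ ≤ C * (‖v‖ + ‖y‖)) :
    ∃ (D : Type) (_ : NormedAddCommGroup D) (_ : InnerProductSpace ℂ D) (Q : Theory D) (G : D → D)
      (T : Ix → Ix → Fld D) (A : (V → V) → D → D) (Γ : Completion D →L[ℂ] Completion D)
      (N : Set V → VonNeumannAlgebra (Completion D)), Stress0 Q T ∧ PCh Q T A ∧ MfAll Q ∧ FSL Q ∧
      LNg Q G A Γ N ∧ L.UVac Q ∧ EBd Q ∧
      (∃ φ, Q.IsScalar φ 1 ∧ ∃ f, IsTest f ∧ φ f Q.vac ≠ 0) ∧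
      ¬FiniteDimensional ℂ (Completion D) ∧ ∃ f, IsTest f ∧ tr T f Q.vac ≠ 0 := by
  obtain ⟨A, hA⟩ := h.rep
  obtain ⟨N, hN⟩ := Net.lnm hA h.scalar h.raw h.fil
  obtain ⟨v, n, p⟩ := h.perp hA
  obtain ⟨Q, G, Γ, q, a, b, c, d, f, g, i, j⟩ :=
    Egr.gr_free h (h.stress0 hA) h.mf h.fsl hN h.uvac e
  exact ⟨D, _, _, Q, G, T, A, Γ, N, a, b, c, d, f, g, i, ⟨φ, j, q ▸ h.nzp⟩, nz_dim hA h.uvac n p,
    q ▸ h.nz⟩

end Vale.Agent.P352W
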