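import Vale.Agent.P352W.St
import Vale.Agent.P352W.Gl.Ps
import Vale.Agent.P352W.Al.Cut
import Vale.Agent.P352W.Rp.Der

/-!
# P352W: the theory of the free field (helper85)
-/

set_option autoImplicit false
set_option linter.all false

open MeasureTheory Filter Topology

noncomputable section

namespace Vale.Agent.P352W

open P352 GF H246 H15 BW P352X
open UniformSpace (Completion)

variable {D : Type*} [NormedAddCommGroup D] [InnerProductSpace ℂ D] {Ω : D} {φ : Fld D}
  {T : Ix → Ix → Fld D} {U : ℝ → (Ix → V) → V → D → D}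

theorem Gl.one_sum (m n : Ix) (x : Ix → Ix → D) :
    ∑ k, ∑ l, ((GF.one k m : ℝ) * (GF.one l n : ℝ) : ℂ) • x k l = x m n := by
  rw [Finset.sum_eq_single m, Finset.sum_eq_single n]
  · simp [GF.one, bas]
  · intro l _ hl
    simp [GF.one, bas, hl.symm]
  · simp
  · intro k _ hk
    simp [GF.one, bas, hk.symm]
  · simp

namespace Free

variable (h : Free Ω φ T U)

/-- the theory -/
def th : Theory D where
  vac := Ω
  fld := Fp φ T
  bose := Fp φ T
  U := U
  norm_vac := h.norm_vac
  cyclic := fun S hS hA => by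
    have e : (S : Set D) = Set.univ := Set.eq_univ_of_forall (h.gen S hS hA)
    rw [e]
    exact dense_univ
  lin := h.lin
  cont := h.cont
  adj := fun B hB => ⟨B, hB, fun f v w hf => h.herm B f v w hB hf⟩
  bose_fld := fun _ hB => hB
  loc := loc_of h.raw fun f g v hf hg s => h.loc0 f g v hf.1 hg.1 s
  U_inner := h.U_inner
  U_vac := h.U_vac
  transl := by
    rintro B a f v (rfl | ⟨m, n, rfl⟩) hf
    · rw [h.cov_phi 1 GF.one a f v one_pos isLor_one hf]
      simp
    · rw [h.cov_T m n 1 GF.one a f v one_pos isLor_one hf,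
        Gl.one_sum m n fun k l => U 1 GF.one a (T k l (fun x => f (sim 1 GF.one a x)) v)]
  spectrum := fun v => by
    obtain ⟨ν, a, b, -, c⟩ := h.spec v
    exact ⟨ν, a, b, c⟩

theorem fp : h.th.fld φ := Or.inl rfl

theorem fT (m n : Ix) : h.th.fld (T m n) := Or.inr ⟨m, n, rfl⟩

theorem scalar : h.th.IsScalar φ 1 := by
  refine ⟨Or.inl rfl, fun f v w hf => h.herm φ f v w h.fp hf, fun s L a f v hs hL hf => ?_⟩
  have e : s ^ ((4 : ℝ) - 1) = s ^ 3 := by
    rw [show (4 : ℝ) - 1 = (3 : ℕ) by norm_num, Real.rpow_natCast]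
  rw [e]
  exact h.cov_phi s L a f v hs hL hf

theorem rep : ∃ A, Rep h.th A :=
  Rp.rep h.th h.U_mul h.gen (fun _ hB => hB) h.scalar h.fT h.cov_T

theorem ch {A : (V → V) → D → D} (hA : Rep h.th A) (F : ℝ → Fn) (X : V → V) (ρ : ℝ)
    (hF : IsCutoff F) (hX : IsSim 0 X) : ∀ᶠ r in atTop, ∀ g v, In (Metric.ball 0 ρ) g →
      ND.cur T X (F r) (φ g v) - φ g (ND.cur T X (F r) v) = A X (φ g v) - φ g (A X v) := by
  obtain ⟨R, hR⟩ := h.chg F X ρ hF hX
  filter_upwards [eventually_ge_atTop R] with r hr g v hg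
  rw [hR r hr g v hg, Rp.A_sc hA h.scalar hX hg.1 v]
  simp only [mul_zero, Complex.ofReal_zero, zero_smul, zero_add, add_sub_cancel_left]
  rfl

theorem pch {A : (V → V) → D → D} (hA : Rep h.th A) : ND.PCh h.th T A :=
  pch_of h.raw (fun _ hB => hB) h.fT hA (h.ch hA)

end Free

end Vale.Agent.P352W
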